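import Vale.Agent.P218.H588.Stat3
import Vale.Agent.P218.H333.EqInv

/-! Second order, equivariant version: definitions and static estimates.

`Pr` is a property of the weak limits of the normalised heights (equivariance). -/

open MeasureTheory Set Filter Topology Metric
open scoped ENNReal NNReal RealInnerProductSpace CompactlySupported

namespace Vale.Agent.P218.SG

open Vale.Agent.P214 (IntegralVarifold proj divAlong IsTestField)
open Vale.Agent.P218.H313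
open Vale.Agent.P218.H588 (Tri nearS Phi lc co rsq nearS_mem nearS_conv exists_ultra DD_interp
  TG_interp abs_coord_le abs_EE_le rsq_nonneg co_apply tendsto_DD_zero quad_le cont_sum
  pb_sum exists_quad_coer)
open Vale.Agent.P218.H333 (LimPr blow_pr)

set_option linter.unusedSectionVars false
set_option linter.unusedVariables false

variable {E : Type*} [NormedAddCommGroup E] [InnerProductSpace ℝ E] [FiniteDimensional ℝ E]
  [MeasurableSpace E] [BorelSpace E]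

/-- second-order data of the shrinker `{W = 0}`: `ζ i` is an orthonormal basis of the Jacobi
fields orthogonal to the rotation fields `η j`; polynomial growth of degree `q`. -/
structure SOD (m : ℕ) (κ : Measure E) (W : E → ℝ) (c K : ℝ) (q : ℕ) {k l : ℕ}
    (ζ : Fin k → E → ℝ) (η : Fin l → E → ℝ) (Pr : (E → ℝ) → Prop) : Prop where
  tube : TubeD W c K
  W3 : ContDiff ℝ 3 W
  Wb3 : PB (fderiv ℝ (fderiv ℝ (grad W)))
  dens : ∀ x : E, ∀ c > om m, ∀ᶠ r in 𝓝[>] (0 : ℝ), (∫ y, H313.ker (r⁻¹ • (y - x)) ∂κ) / r ^ m ≤ c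
  zero : ∀ᵐ x ∂κ, W x = 0
  cd : ∀ i, ContDiff ℝ 3 (ζ i)
  b0 : ∀ i x, |ζ i x| ≤ K * (1 + ‖x‖) ^ q
  b1 : ∀ i x, ‖grad (ζ i) x‖ ≤ K * (1 + ‖x‖) ^ q
  b2 : ∀ i x, ‖fderiv ℝ (grad (ζ i)) x‖ ≤ K * (1 + ‖x‖) ^ q
  b3 : ∀ i, PB (fderiv ℝ (fderiv ℝ (grad (ζ i))))
  perp : ∀ i x, |W x| < c → ⟪grad (ζ i) x, grad W x⟫ = 0
  jac0 : ∀ i x, W x = 0 → jac W (ζ i) x = 0
  ηcd : ∀ j, ContDiff ℝ 1 (η j)
  η0 : ∀ j x, |η j x| ≤ K * (1 + ‖x‖)
  η1 : ∀ j x, ‖grad (η j) x‖ ≤ K * (1 + ‖x‖)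
  on : ∀ i j, ∫ x, ζ i x * ζ j x * rho x ∂κ = if i = j then 1 else 0
  orth : ∀ i j, ∫ x, ζ i x * η j x * rho x ∂κ = 0
  hnd : ∀ u : E → ℝ, AEStronglyMeasurable u κ → Integrable (fun x => u x ^ 2 * rho x) κ →
      (∀ ξ : E → ℝ, ContDiff ℝ (⊤ : ℕ∞) ξ → HasCompactSupport ξ →
        ∫ x, u x * jac W ξ x * rho x ∂κ = 0) → Pr u →
      ∃ (x : Fin k → ℝ) (y : Fin l → ℝ), u =ᵐ[κ] fun p => ∑ i, x i * ζ i p + ∑ j, y j * η j p
  /-- second-order nondegeneracy -/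
  nd : ∀ a : EuclideanSpace ℝ (Fin k), (∀ i, Phi κ W (lc ζ a) (lc ζ a) (ζ i) = 0) → a = 0

variable {m : ℕ} {κ : Measure E} {W : E → ℝ} {c K : ℝ} {q k l : ℕ} {ζ : Fin k → E → ℝ}
  {η : Fin l → E → ℝ} {Pr : (E → ℝ) → Prop} {CM : ℕ → ℝ} {CR : ℝ}

lemma SOD.pbζ (hD : SOD m κ W c K q ζ η Pr) (i : Fin k) : PB (ζ i) :=
  PB.of_le (C := K) (p := q) fun x => by rw [Real.norm_eq_abs]; exact hD.b0 i x

lemma SOD.contζ (hD : SOD m κ W c K q ζ η Pr) (i : Fin k) : Continuous (ζ i) := (hD.cd i).continuous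

lemma SOD.pgζ (hD : SOD m κ W c K q ζ η Pr) (i : Fin k) : PG (ζ i) where
  cd := (hD.cd i).of_le (by norm_num)
  b0 := hD.pbζ i
  b1 := PB.of_le (C := K) (p := q) fun x => by rw [← norm_grad]; exact hD.b1 i x

lemma SOD.pbη (hD : SOD m κ W c K q ζ η Pr) (j : Fin l) : PB (η j) :=
  PB.of_le (C := K) (p := 1) fun x => by rw [Real.norm_eq_abs, pow_one]; exact hD.η0 j x

lemma SOD.contη (hD : SOD m κ W c K q ζ η Pr) (j : Fin l) : Continuous (η j) :=
  (hD.ηcd j).continuous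

/-- what is used of the expansion of the rate -/
structure Inp (m : ℕ) (κ : Measure E) (W : E → ℝ) {k l : ℕ} (ζ : Fin k → E → ℝ)
    (η : Fin l → E → ℝ) (Pr : (E → ℝ) → Prop) (C₀ : ℝ) (J₀ : ℕ) (B : Fin k → Fin k → Fin k → ℝ) : Prop where
  nn : 0 ≤ C₀
  quad : ∀ (a : EuclideanSpace ℝ (Fin k)) (i : Fin k),
    Phi κ W (lc ζ a) (lc ζ a) (ζ i) = ∑ p, ∑ r, a p * a r * B p r i
  crude : ∀ (j : Fin k) (μ : Measure E) (T : E → Submodule ℝ E) (H : E → E), GSlice m μ T H →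
    |EE μ T H (fun y => W y * ζ j y)| ≤ C₀ * (DD μ W J₀ + TG μ T W J₀ + dis μ T H)
  fine : ∀ U : Ultrafilter (Tri E), Conv U m (·.μ) (·.T) (·.H) κ →
    (∀ᶠ t in (U : Filter (Tri E)), 0 < DD t.μ W 0) →
    Tendsto (fun t : Tri E => DD t.μ W 0) U (𝓝 0) →
    Tendsto (fun t : Tri E => dis t.μ t.T t.H / DD t.μ W 0) U (𝓝 0) →
    (∃ M, ∀ᶠ t in (U : Filter (Tri E)), DD t.μ W J₀ + TG t.μ t.T W J₀ ≤ M * DD t.μ W 0) →
    ∀ a : EuclideanSpace ℝ (Fin k), (∀ f : E → ℝ, Continuous f → PB f →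
      Tendsto (fun t : Tri E => ∫ x, nh t.μ W x * f x * rho x ∂t.μ) U
        (𝓝 (∫ x, f x * lc ζ a x * rho x ∂κ))) →
    ∀ j, Tendsto (fun t : Tri E => EE t.μ t.T t.H (fun y => W y * ζ j y) / DD t.μ W 0) U
      (𝓝 (Phi κ W (lc ζ a) (lc ζ a) (ζ j)))
  lim : ∀ U : Ultrafilter (Tri E), Conv U m (·.μ) (·.T) (·.H) κ →
    (∀ᶠ t in (U : Filter (Tri E)), 0 < DD t.μ W 0) →
    Tendsto (fun t : Tri E => DD t.μ W 0) U (𝓝 0) →
    Tendsto (fun t : Tri E => dis t.μ t.T t.H / DD t.μ W 0) U (𝓝 0) →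
    LimPr U (fun t : Tri E => t.μ) κ (fun _ => W) Pr →
    ∃ (x : Fin k → ℝ) (y : Fin l → ℝ), ∀ f : E → ℝ, Continuous f → PB f →
      Tendsto (fun t : Tri E => ∫ x, nh t.μ W x * f x * rho x ∂t.μ) U
        (𝓝 (∫ p, f p * (∑ i, x i * ζ i p + ∑ j, y j * η j p) * rho p ∂κ))

lemma int_lin (hD : SOD m κ W c K q ζ η Pr) (hmom : ∀ p : ℕ,
    Integrable (fun x => (1 + ‖x‖) ^ p * rho x) κ) {f : E → ℝ} (hf : Continuous f)
    (hfb : PB f) : Integrable (fun x => f x * rho x) κ := by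
  obtain ⟨C, p, hC, hb⟩ := hfb
  refine ((hmom p).const_mul C).mono' (hf.mul continuous_rho).aestronglyMeasurable
    (Eventually.of_forall fun x => ?_)
  rw [norm_mul, Real.norm_of_nonneg (rho_pos x).le, ← mul_assoc]
  exact mul_le_mul_of_nonneg_right (hb x) (rho_pos x).le

/-- the limit of the blow-up is a combination of the `ζ i` if the rotation coordinates are
negligible, and the coordinates converge -/
lemma blow_lim (hD : SOD m κ W c K q ζ η Pr) {C₀ : ℝ} {J₀ : ℕ}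
    {B : Fin k → Fin k → Fin k → ℝ} (hI : Inp m κ W ζ η Pr C₀ J₀ B) {U : Ultrafilter (Tri E)}
    (hc : Conv U m (·.μ) (·.T) (·.H) κ)
    (hpos : ∀ᶠ t in (U : Filter (Tri E)), 0 < DD t.μ W 0)
    (hDD : Tendsto (fun t : Tri E => DD t.μ W 0) U (𝓝 0))
    (hdis : Tendsto (fun t : Tri E => dis t.μ t.T t.H / DD t.μ W 0) U (𝓝 0))
    (hPr : LimPr U (fun t : Tri E => t.μ) κ (fun _ => W) Pr)
    (hrsq : Tendsto (fun t : Tri E => rsq W η t.μ / DD t.μ W 0) U (𝓝 0)) :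
    ∃ a : EuclideanSpace ℝ (Fin k), (∀ f : E → ℝ, Continuous f → PB f →
      Tendsto (fun t : Tri E => ∫ x, nh t.μ W x * f x * rho x ∂t.μ) U
        (𝓝 (∫ x, f x * lc ζ a x * rho x ∂κ))) ∧
      ∀ i, Tendsto (fun t : Tri E => (√(DD t.μ W 0))⁻¹ * co W ζ t.μ i) U (𝓝 (a i)) := by
  have hmom := hc.mom_lim
  obtain ⟨x, y, hxy⟩ := hI.lim U hc hpos hDD hdis hPr
  set g : E → ℝ := fun p => ∑ j, y j * η j p with hg
  have hgc : Continuous g := cont_sum hD.contη y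
  have hgb : PB g := pb_sum hD.pbη y
  set a : EuclideanSpace ℝ (Fin k) := WithLp.toLp 2 x with ha
  have hlc : ∀ p, lc ζ a p = ∑ i, x i * ζ i p := fun p => rfl
  have hlcc : Continuous (lc ζ a) := cont_sum hD.contζ x
  have hlcb : PB (lc ζ a) := pb_sum hD.pbζ x
  -- orthogonality
  have horth : ∫ p, g p * lc ζ a p * rho p ∂κ = 0 := by
    have e : ∀ p, g p * lc ζ a p * rho p = ∑ j, ∑ i, y j * x i * (ζ i p * η j p * rho p) := by
      intro p
      rw [hlc, hg]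
      simp only
      rw [Finset.sum_mul_sum, Finset.sum_mul]
      refine Finset.sum_congr rfl fun j _ => ?_
      rw [Finset.sum_mul]
      refine Finset.sum_congr rfl fun i _ => ?_
      ring
    simp_rw [e]
    have hi : ∀ (j : Fin l) (i : Fin k),
        Integrable (fun p => y j * x i * (ζ i p * η j p * rho p)) κ := fun j i =>
      (int_lin hD hmom ((hD.contζ i).mul (hD.contη j)) ((hD.pbζ i).mul (hD.pbη j))).const_mul _
    rw [integral_finsetSum _ fun j _ => integrable_finsetSum _ fun i _ => hi j i]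
    refine Finset.sum_eq_zero fun j _ => ?_
    rw [integral_finsetSum _ fun i _ => hi j i]
    refine Finset.sum_eq_zero fun i _ => ?_
    rw [integral_const_mul, hD.orth i j, mul_zero]
  -- the rotation part vanishes
  have hg0 : Tendsto (fun t : Tri E => ∫ x, nh t.μ W x * g x * rho x ∂t.μ) U (𝓝 0) := by
    have hs : Tendsto (fun t : Tri E => (∑ j, |y j|) * √(rsq W η t.μ / DD t.μ W 0)) U (𝓝 0) := by
      have := (hrsq.sqrt).const_mul (∑ j, |y j|)
      rwa [Real.sqrt_zero, mul_zero] at this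
    refine squeeze_zero_norm' ?_ hs
    filter_upwards [hc.sl, hpos] with t ht hp
    have e : ∫ x, nh t.μ W x * g x * rho x ∂t.μ
        = ∑ j, y j * ((√(DD t.μ W 0))⁻¹ * ∫ x, W x * η j x * rho x ∂t.μ) := by
      have e1 : ∀ x, nh t.μ W x * g x * rho x
          = ∑ j, y j * (√(DD t.μ W 0))⁻¹ * (W x * η j x * rho x) := by
        intro x
        simp only [nh, hg]
        rw [Finset.mul_sum, Finset.sum_mul]
        refine Finset.sum_congr rfl fun j _ => ?_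
        ring
      simp_rw [e1]
      have hi : ∀ j, Integrable (fun x => y j * (√(DD t.μ W 0))⁻¹ * (W x * η j x * rho x))
          t.μ := fun j => (ht.integrable_PB (u := fun x => W x * η j x)
        (hD.tube.cont.mul (hD.contη j)).aestronglyMeasurable
          (hD.tube.pg.b0.mul (hD.pbη j))).const_mul _
      rw [integral_finsetSum _ fun j _ => hi j]
      refine Finset.sum_congr rfl fun j _ => ?_
      rw [integral_const_mul]; ring
    rw [e, Real.norm_eq_abs, Finset.sum_mul]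
    refine (Finset.abs_sum_le_sum_abs _ _).trans (Finset.sum_le_sum fun j _ => ?_)
    rw [abs_mul]
    refine mul_le_mul_of_nonneg_left ?_ (abs_nonneg _)
    rw [abs_mul, abs_of_nonneg (by positivity), Real.sqrt_div (rsq_nonneg _ _ _),
      inv_mul_eq_div]
    refine div_le_div_of_nonneg_right ?_ (Real.sqrt_nonneg _)
    rw [← Real.sqrt_sq_eq_abs]
    refine Real.sqrt_le_sqrt ?_
    exact Finset.single_le_sum (f := fun j => (∫ x, W x * η j x * rho x ∂t.μ) ^ 2)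
      (fun j _ => sq_nonneg _) (Finset.mem_univ j)
  have hgg : ∫ p, g p ^ 2 * rho p ∂κ = 0 := by
    have h1 := tendsto_nhds_unique hg0 (hxy g hgc hgb)
    have i1 : Integrable (fun p => g p * lc ζ a p * rho p) κ :=
      int_lin hD hmom (hgc.mul hlcc) (hgb.mul hlcb)
    have i2 : Integrable (fun p => g p ^ 2 * rho p) κ := int_lin hD hmom (hgc.pow 2) (hgb.pow 2)
    have e : ∫ p, g p * (∑ i, x i * ζ i p + ∑ j, y j * η j p) * rho p ∂κ
        = ∫ p, g p * lc ζ a p * rho p ∂κ + ∫ p, g p ^ 2 * rho p ∂κ := by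
      rw [← integral_add i1 i2]
      congr 1; ext p
      rw [hlc]; simp only [hg]; ring
    rw [e, horth, zero_add] at h1
    exact h1.symm
  have hgae : ∀ᵐ p ∂κ, g p = 0 := by
    have h1 := (integral_eq_zero_iff_of_nonneg (fun x => mul_nonneg (sq_nonneg _)
      (rho_pos x).le) (int_lin hD hmom (hgc.pow 2) (hgb.pow 2))).1 hgg
    filter_upwards [h1] with x hx
    have h2 : g x ^ 2 * rho x = 0 := hx
    rcases mul_eq_zero.1 h2 with h3 | h3
    · exact pow_eq_zero_iff (two_ne_zero) |>.1 h3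
    · exact absurd h3 (rho_pos x).ne'
  have hlim : ∀ f : E → ℝ, Continuous f → PB f →
      Tendsto (fun t : Tri E => ∫ x, nh t.μ W x * f x * rho x ∂t.μ) U
        (𝓝 (∫ x, f x * lc ζ a x * rho x ∂κ)) := by
    intro f hf hfb
    have h1 := hxy f hf hfb
    have e : ∫ p, f p * (∑ i, x i * ζ i p + ∑ j, y j * η j p) * rho p ∂κ
        = ∫ x, f x * lc ζ a x * rho x ∂κ := by
      refine integral_congr_ae ?_
      filter_upwards [hgae] with p hp
      simp only [hg] at hp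
      rw [hp, add_zero, hlc]
    rwa [e] at h1
  refine ⟨a, hlim, fun i => ?_⟩
  have h1 := hlim (ζ i) (hD.contζ i) (hD.pbζ i)
  have e : ∫ p, ζ i p * lc ζ a p * rho p ∂κ = a i := by
    have e1 : ∀ p, ζ i p * lc ζ a p * rho p = ∑ j, x j * (ζ i p * ζ j p * rho p) := by
      intro p
      rw [hlc, Finset.mul_sum, Finset.sum_mul]
      refine Finset.sum_congr rfl fun j _ => ?_
      ring
    simp_rw [e1]
    have hi : ∀ j, Integrable (fun p => x j * (ζ i p * ζ j p * rho p)) κ := fun j =>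
      (int_lin hD hmom (f := fun p => ζ i p * ζ j p) ((hD.contζ i).mul (hD.contζ j))
        ((hD.pbζ i).mul (hD.pbζ j))).const_mul _
    rw [integral_finsetSum _ fun j _ => hi j]
    simp_rw [integral_const_mul, hD.on i]
    simp [ha]
  rw [e] at h1
  refine h1.congr fun t => ?_
  rw [co_apply, ← integral_const_mul]
  congr 1; ext x
  simp only [nh]; ring


variable {C₀ : ℝ} {J₀ : ℕ} {B : Fin k → Fin k → Fin k → ℝ}

lemma SOD.K_nn (hD : SOD m κ W c K q ζ η Pr) : 0 ≤ K := hD.tube.K_nonneg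

/-- crude bound of the deviation -/
lemma dev_le (hD : SOD m κ W c K q ζ η Pr) (hI : Inp m κ W ζ η Pr C₀ J₀ B) (CM : ℕ → ℝ) :
    ∃ b : ℝ, 0 ≤ b ∧ ∀ t : Tri E, GSlice m t.μ t.T t.H →
      (∀ p, ∫ x, (1 + ‖x‖) ^ p * rho x ∂t.μ ≤ CM p) → ∀ i,
      |Phi κ W (lc ζ (co W ζ t.μ)) (lc ζ (co W ζ t.μ)) (ζ i)| ≤ b * DD t.μ W 0 := by
  set L := K * √(CM (2 * q)) with hL
  have hK := hD.K_nn
  have hL0 : 0 ≤ L := by positivity
  refine ⟨(∑ p, ∑ r, ∑ i, |B p r i|) * L ^ 2, by positivity, fun t ht hM i => ?_⟩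
  rw [hI.quad]
  have h1 : ∀ i, |co W ζ t.μ i| ≤ L * √(DD t.μ W 0) := fun i =>
    abs_coord_le ht hD.tube (hD.contζ i) hK (hD.b0 i) (hM _)
  refine (quad_le (by positivity) h1 i).trans (le_of_eq ?_)
  rw [mul_pow, Real.sq_sqrt (DD_nonneg 0)]
  ring

/-- the ratio `Phi(co, co, ζ i) / DD` converges -/
lemma tendsto_phi (hI : Inp m κ W ζ η Pr C₀ J₀ B) {U : Ultrafilter (Tri E)}
    (hpos : ∀ᶠ t in (U : Filter (Tri E)), 0 < DD t.μ W 0) {a : EuclideanSpace ℝ (Fin k)}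
    (ha : ∀ i, Tendsto (fun t : Tri E => (√(DD t.μ W 0))⁻¹ * co W ζ t.μ i) U (𝓝 (a i)))
    (i : Fin k) :
    Tendsto (fun t : Tri E => Phi κ W (lc ζ (co W ζ t.μ)) (lc ζ (co W ζ t.μ)) (ζ i)
      / DD t.μ W 0) U (𝓝 (Phi κ W (lc ζ a) (lc ζ a) (ζ i))) := by
  have h1 : Tendsto (fun t : Tri E => ∑ p, ∑ r, ((√(DD t.μ W 0))⁻¹ * co W ζ t.μ p)
      * ((√(DD t.μ W 0))⁻¹ * co W ζ t.μ r) * B p r i) U (𝓝 (∑ p, ∑ r, a p * a r * B p r i)) :=
    tendsto_finsetSum _ fun p _ => tendsto_finsetSum _ fun r _ =>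
      ((ha p).mul (ha r)).mul_const _
  rw [← hI.quad] at h1
  refine h1.congr' ?_
  filter_upwards [hpos] with t hp
  rw [hI.quad, Finset.sum_div]
  refine Finset.sum_congr rfl fun p _ => ?_
  rw [Finset.sum_div]
  refine Finset.sum_congr rfl fun r _ => ?_
  have h2 : (√(DD t.μ W 0))⁻¹ * (√(DD t.μ W 0))⁻¹ = (DD t.μ W 0)⁻¹ := by
    rw [← mul_inv, Real.mul_self_sqrt hp.le]
  rw [div_eq_mul_inv, ← h2]
  ring

/-- **L1: the static rate** -/
theorem static_rate (hm : 0 < m) (hE : Module.finrank ℝ E = m + 1) [IsLocallyFiniteMeasure κ]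
    (hD : SOD m κ W c K q ζ η Pr) (hI : Inp m κ W ζ η Pr C₀ J₀ B) {F : Filter (Tri E)}
    (hF : F ≤ nearS m κ CM CR)
    (hPr : ∀ U : Ultrafilter (Tri E), (U : Filter (Tri E)) ≤ F →
      LimPr U (fun t : Tri E => t.μ) κ (fun _ => W) Pr) :
    ∀ ε > 0, ∃ C : ℝ, 0 ≤ C ∧ ∀ᶠ t in F, ∀ i,
      |EE t.μ t.T t.H (fun y => W y * ζ i y)
          - Phi κ W (lc ζ (co W ζ t.μ)) (lc ζ (co W ζ t.μ)) (ζ i)|
        ≤ ε * (DD t.μ W (J₀ + 1) + TG t.μ t.T W (J₀ + 1))
          + C * (dis t.μ t.T t.H + rsq W η t.μ) := by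
  intro ε hε
  by_contra hcon
  push Not at hcon
  have hW := hD.tube
  have hK := hD.K_nn
  obtain ⟨b, hb, hdev⟩ := dev_le hD hI CM
  obtain ⟨CT, hCT, hTG⟩ := exists_TG_le (E := E) hE hW.cpos hK
  set X : Tri E → Fin k → ℝ := fun t i => |EE t.μ t.T t.H (fun y => W y * ζ i y)
          - Phi κ W (lc ζ (co W ζ t.μ)) (lc ζ (co W ζ t.μ)) (ζ i)| with hX
  set Y : Tri E → ℝ := fun t => dis t.μ t.T t.H + rsq W η t.μ with hY
  set Z : Tri E → ℝ := fun t => DD t.μ W (J₀ + 1) + TG t.μ t.T W (J₀ + 1) with hZ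
  have hY0 : ∀ t, 0 ≤ Y t := fun t => add_nonneg dis_nonneg (rsq_nonneg _ _ _)
  have hZ0 : ∀ t, 0 ≤ Z t := fun t => add_nonneg (DD_nonneg _) (TG_nonneg _)
  obtain ⟨U, hU, hS⟩ := exists_ultra (f := F)
    (S := fun n => {t | ∃ i, ε * Z t + (n : ℝ) * Y t < X t i})
    (fun i j hij t ht => by
      obtain ⟨i', h1⟩ := ht
      refine ⟨i', lt_of_le_of_lt ?_ h1⟩
      have : (i : ℝ) * Y t ≤ j * Y t :=
        mul_le_mul_of_nonneg_right (by exact_mod_cast hij) (hY0 t)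
      linarith)
    (fun n => (hcon n n.cast_nonneg).mono fun t ht => ht)
  have hUS := hU.trans hF
  have hc := nearS_conv hUS
  -- the constants
  set δ := ε / (2 * (C₀ + 1)) with hδ
  have hC₀ := hI.nn
  have hδ0 : 0 < δ := by positivity
  have hδε : C₀ * δ ≤ ε / 2 := by
    rw [hδ, mul_div_assoc', div_le_div_iff₀ (by positivity) (by norm_num)]
    nlinarith
  set C₁ := C₀ * ((δ⁻¹) ^ J₀ * (1 + CT)) + C₀ + b with hC₁
  have hC₁0 : 0 ≤ C₁ := by positivity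
  have hbound : ∀ᶠ t in (U : Filter (Tri E)), ∀ i,
      X t i ≤ ε / 2 * Z t + C₁ * (DD t.μ W 0 + dis t.μ t.T t.H) := by
    filter_upwards [hUS nearS_mem] with t ht i
    obtain ⟨hsl, hmo, -⟩ := ht
    have h1 : X t i ≤ |EE t.μ t.T t.H (fun y => W y * ζ i y)|
        + |Phi κ W (lc ζ (co W ζ t.μ)) (lc ζ (co W ζ t.μ)) (ζ i)| := abs_sub _ _
    have h2 := hI.crude i t.μ t.T t.H hsl
    have h3 := hdev t hsl hmo i
    have h4 := DD_interp hsl hW hδ0 J₀
    have h5 := TG_interp hsl hW hδ0 J₀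
    have h6 := hTG W hW t.μ t.T t.H hsl
    have hD0 := DD_nonneg (μ := t.μ) (W := W) 0
    have hd0 := dis_nonneg (μ := t.μ) (T := t.T) (H := t.H)
    have hi0 : 0 ≤ (δ⁻¹) ^ J₀ := by positivity
    have h7 : (δ⁻¹) ^ J₀ * TG t.μ t.T W 0 ≤ (δ⁻¹) ^ J₀ * (CT * (DD t.μ W 0 + dis t.μ t.T t.H)) :=
      mul_le_mul_of_nonneg_left h6 hi0
    have h8 : (δ⁻¹) ^ J₀ * DD t.μ W 0 ≤ (δ⁻¹) ^ J₀ * (DD t.μ W 0 + dis t.μ t.T t.H) :=
      mul_le_mul_of_nonneg_left (by linarith) hi0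
    have h9 : DD t.μ W J₀ + TG t.μ t.T W J₀ + dis t.μ t.T t.H
        ≤ δ * Z t + (δ⁻¹) ^ J₀ * (1 + CT) * (DD t.μ W 0 + dis t.μ t.T t.H)
          + (DD t.μ W 0 + dis t.μ t.T t.H) := by
      simp only [hZ]
      linarith
    have h10 := h2.trans (mul_le_mul_of_nonneg_left h9 hC₀)
    have h11 : C₀ * δ * Z t ≤ ε / 2 * Z t := mul_le_mul_of_nonneg_right hδε (hZ0 t)
    have h12 : b * DD t.μ W 0 ≤ b * (DD t.μ W 0 + dis t.μ t.T t.H) :=
      mul_le_mul_of_nonneg_left (by linarith) hb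
    rw [hC₁]
    linarith
  -- the key inequality
  have hkey : ∀ n : ℕ, 2 * C₁ ≤ n → ∀ᶠ t in (U : Filter (Tri E)),
      ε / 2 * Z t + (n : ℝ) / 2 * Y t < C₁ * DD t.μ W 0 := by
    intro n hn
    filter_upwards [hS n, hbound] with t h1 h2
    obtain ⟨i, h3⟩ := h1
    have h4 := h2 i
    have hr := rsq_nonneg W η t.μ
    have hd0 := dis_nonneg (μ := t.μ) (T := t.T) (H := t.H)
    have h5 : C₁ * dis t.μ t.T t.H ≤ (n : ℝ) / 2 * Y t := by
      have h6 : dis t.μ t.T t.H ≤ Y t := by simp only [hY]; linarith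
      calc C₁ * dis t.μ t.T t.H ≤ (n : ℝ) / 2 * dis t.μ t.T t.H :=
            mul_le_mul_of_nonneg_right (by linarith) hd0
        _ ≤ _ := mul_le_mul_of_nonneg_left h6 (by positivity)
    linarith
  obtain ⟨n₀, hn₀⟩ := exists_nat_ge (2 * C₁)
  have hpos : ∀ᶠ t in (U : Filter (Tri E)), 0 < DD t.μ W 0 := by
    filter_upwards [hkey n₀ hn₀] with t ht
    have h1 : 0 ≤ ε / 2 * Z t := mul_nonneg (by positivity) (hZ0 t)
    have h2 : 0 ≤ (n₀ : ℝ) / 2 * Y t := mul_nonneg (by positivity) (hY0 t)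
    by_contra h3
    push Not at h3
    have h4 : C₁ * DD t.μ W 0 ≤ 0 := mul_nonpos_of_nonneg_of_nonpos hC₁0 h3
    linarith
  have hM : ∃ M, ∀ᶠ t in (U : Filter (Tri E)), DD t.μ W J₀ + TG t.μ t.T W J₀
      ≤ M * DD t.μ W 0 := by
    refine ⟨2 * C₁ / ε, ?_⟩
    filter_upwards [hkey n₀ hn₀, hUS nearS_mem] with t ht hs
    have h2 : 0 ≤ (n₀ : ℝ) / 2 * Y t := mul_nonneg (by positivity) (hY0 t)
    have h3 : ε / 2 * Z t ≤ C₁ * DD t.μ W 0 := by linarith
    have h4 : Z t ≤ 2 * C₁ / ε * DD t.μ W 0 := by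
      rw [div_mul_eq_mul_div, le_div_iff₀ hε]
      linarith
    have h5 := H588.DD_mono hs.1 hW (Nat.le_succ J₀)
    have h6 := H588.TG_mono hs.1 hW (Nat.le_succ J₀)
    simp only [hZ] at h4
    linarith
  have hYr : Tendsto (fun t => Y t / DD t.μ W 0) U (𝓝 0) := by
    rw [Metric.tendsto_nhds]
    intro e he
    obtain ⟨n, hn⟩ := exists_nat_gt (max (2 * C₁) (2 * C₁ / e))
    have hn1 : 2 * C₁ ≤ n := (le_max_left _ _).trans hn.le
    have hn2 : 2 * C₁ / e < n := (le_max_right _ _).trans_lt hn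
    filter_upwards [hkey n hn1, hpos] with t ht hp
    have h1 : 0 ≤ ε / 2 * Z t := mul_nonneg (by positivity) (hZ0 t)
    have h2 : (n : ℝ) / 2 * Y t < C₁ * DD t.μ W 0 := by linarith
    rw [Real.dist_eq, sub_zero, abs_of_nonneg (div_nonneg (hY0 t) hp.le), div_lt_iff₀ hp]
    rw [div_lt_iff₀ he] at hn2
    have hn0 : (0 : ℝ) < n := lt_of_le_of_ne n.cast_nonneg (fun h => by
      rw [← h] at hn2; simp only [zero_mul] at hn2; linarith)
    by_contra h3
    push Not at h3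
    have h4 : (n : ℝ) / 2 * (e * DD t.μ W 0) ≤ (n : ℝ) / 2 * Y t :=
      mul_le_mul_of_nonneg_left h3 (by positivity)
    have h5 : (n : ℝ) * e / 2 * DD t.μ W 0 < C₁ * DD t.μ W 0 := by linarith
    have h6 := lt_of_mul_lt_mul_right h5 hp.le
    linarith
  have hdis : Tendsto (fun t : Tri E => dis t.μ t.T t.H / DD t.μ W 0) U (𝓝 0) := by
    refine squeeze_zero' ?_ ?_ hYr
    · filter_upwards [hpos] with t hp using div_nonneg dis_nonneg hp.le
    · filter_upwards [hpos] with t hp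
      refine div_le_div_of_nonneg_right ?_ hp.le
      have := rsq_nonneg W η t.μ
      simp only [hY]; linarith
  have hrsq : Tendsto (fun t : Tri E => rsq W η t.μ / DD t.μ W 0) U (𝓝 0) := by
    refine squeeze_zero' ?_ ?_ hYr
    · filter_upwards [hpos] with t hp using div_nonneg (rsq_nonneg _ _ _) hp.le
    · filter_upwards [hpos] with t hp
      refine div_le_div_of_nonneg_right ?_ hp.le
      have := dis_nonneg (μ := t.μ) (T := t.T) (H := t.H)
      simp only [hY]; linarith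
  have hDD := tendsto_DD_zero hW hD.zero hc
  obtain ⟨a, ha1, ha2⟩ := blow_lim hD hI hc hpos hDD hdis (hPr U hU) hrsq
  have hfine := hI.fine U hc hpos hDD hdis hM a ha1
  have hfin : ∀ᶠ t in (U : Filter (Tri E)), ∀ i, X t i < ε * DD t.μ W 0 := by
    rw [eventually_all]
    intro i
    have h1 := (hfine i).sub (tendsto_phi hI hpos ha2 i)
    rw [sub_self] at h1
    have h2 := (Metric.tendsto_nhds.1 h1) ε hε
    filter_upwards [h2, hpos] with t ht hp
    rw [dist_zero_right, Real.norm_eq_abs, ← sub_div, abs_div, abs_of_pos hp,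
      div_lt_iff₀ hp] at ht
    exact ht
  obtain ⟨t, h1, h2, h3⟩ := (hfin.and ((hS 0).and (hUS nearS_mem))).exists
  obtain ⟨i, h4⟩ := h2
  have h5 := h1 i
  have h6 := H588.DD_mono h3.1 hW (Nat.zero_le (J₀ + 1))
  have h7 : ε * DD t.μ W 0 ≤ ε * Z t := by
    refine mul_le_mul_of_nonneg_left ?_ hε.le
    have := TG_nonneg (μ := t.μ) (T := t.T) (W := W) (J₀ + 1)
    simp only [hZ]; linarith
  rw [Nat.cast_zero, zero_mul, add_zero] at h4
  linarith

/-- **L2: the static estimate** -/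
theorem static_coer (hm : 0 < m) (hE : Module.finrank ℝ E = m + 1) [IsLocallyFiniteMeasure κ]
    (hD : SOD m κ W c K q ζ η Pr) {F : Filter (Tri E)} (hF : F ≤ nearS m κ CM CR)
    (hPr : ∀ U : Ultrafilter (Tri E), (U : Filter (Tri E)) ≤ F →
      LimPr U (fun t : Tri E => t.μ) κ (fun _ => W) Pr) : ∃ C : ℝ, 0 ≤ C ∧
    ∀ᶠ t in F,
      DD t.μ W 0 ≤ C * (‖co W ζ t.μ‖ ^ 2 + dis t.μ t.T t.H + rsq W η t.μ) := by
  by_contra hcon
  push Not at hcon
  have hW := hD.tube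
  set Y : Tri E → ℝ := fun t => ‖co W ζ t.μ‖ ^ 2 + dis t.μ t.T t.H + rsq W η t.μ with hY
  have hY0 : ∀ t, 0 ≤ Y t := fun t =>
    add_nonneg (add_nonneg (sq_nonneg _) dis_nonneg) (rsq_nonneg _ _ _)
  obtain ⟨U, hU, hS⟩ := exists_ultra (f := F)
    (S := fun n => {t | (n : ℝ) * Y t < DD t.μ W 0})
    (fun i j hij t ht => by
      have h1 : (j : ℝ) * Y t < DD t.μ W 0 := ht
      exact lt_of_le_of_lt
        (mul_le_mul_of_nonneg_right (by exact_mod_cast hij) (hY0 t)) h1)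
    (fun n => (hcon n n.cast_nonneg).mono fun t ht => ht)
  have hUS := hU.trans hF
  have hc := nearS_conv hUS
  have hpos : ∀ᶠ t in (U : Filter (Tri E)), 0 < DD t.μ W 0 := by
    filter_upwards [hS 0] with t ht
    simpa using ht
  have hDD := tendsto_DD_zero hW hD.zero hc
  have hYr : Tendsto (fun t => Y t / DD t.μ W 0) U (𝓝 0) := by
    rw [Metric.tendsto_nhds]
    intro e he
    obtain ⟨n, hn⟩ := exists_nat_gt (1 / e)
    filter_upwards [hS n, hpos] with t ht hp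
    have h2 : (n : ℝ) * Y t < DD t.μ W 0 := ht
    rw [Real.dist_eq, sub_zero, abs_of_nonneg (div_nonneg (hY0 t) hp.le), div_lt_iff₀ hp]
    rw [div_lt_iff₀ he] at hn
    have h3 : Y t ≤ n * e * Y t := le_mul_of_one_le_left (hY0 t) hn.le
    have h4 : e * (n * Y t) < e * DD t.μ W 0 := mul_lt_mul_of_pos_left h2 he
    linarith
  have hdis : Tendsto (fun t : Tri E => dis t.μ t.T t.H / DD t.μ W 0) U (𝓝 0) := by
    refine squeeze_zero' ?_ ?_ hYr
    · filter_upwards [hpos] with t hp using div_nonneg dis_nonneg hp.le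
    · filter_upwards [hpos] with t hp
      refine div_le_div_of_nonneg_right ?_ hp.le
      have := rsq_nonneg W η t.μ
      have := sq_nonneg ‖co W ζ t.μ‖
      simp only [hY]; linarith
  have hsY : Tendsto (fun t => √(Y t / DD t.μ W 0)) U (𝓝 0) := by
    have := hYr.sqrt; rwa [Real.sqrt_zero] at this
  have hζ0 : ∀ i, Tendsto (fun t : Tri E => (∫ x, W x * ζ i x * rho x ∂t.μ)
      / √(DD t.μ W 0)) U (𝓝 0) := by
    intro i
    refine squeeze_zero_norm' ?_ hsY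
    filter_upwards [hpos] with t hp
    rw [norm_div, Real.norm_of_nonneg (Real.sqrt_nonneg _), Real.sqrt_div (hY0 t)]
    refine div_le_div_of_nonneg_right ?_ (Real.sqrt_nonneg _)
    rw [Real.norm_eq_abs, ← Real.sqrt_sq_eq_abs]
    refine Real.sqrt_le_sqrt ?_
    have h1 : (∫ x, W x * ζ i x * rho x ∂t.μ) ^ 2 ≤ ‖co W ζ t.μ‖ ^ 2 := by
      rw [EuclideanSpace.norm_sq_eq]
      have := Finset.single_le_sum (f := fun i => ‖co W ζ t.μ i‖ ^ 2)
        (fun i _ => sq_nonneg _) (Finset.mem_univ i)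
      simp only [Real.norm_eq_abs, sq_abs] at this ⊢
      exact this
    have := rsq_nonneg W η t.μ
    have := dis_nonneg (μ := t.μ) (T := t.T) (H := t.H)
    simp only [hY]; linarith
  have hη0 : ∀ j, Tendsto (fun t : Tri E => (∫ x, W x * η j x * rho x ∂t.μ)
      / √(DD t.μ W 0)) U (𝓝 0) := by
    intro j
    refine squeeze_zero_norm' ?_ hsY
    filter_upwards [hpos] with t hp
    rw [norm_div, Real.norm_of_nonneg (Real.sqrt_nonneg _), Real.sqrt_div (hY0 t)]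
    refine div_le_div_of_nonneg_right ?_ (Real.sqrt_nonneg _)
    rw [Real.norm_eq_abs, ← Real.sqrt_sq_eq_abs]
    refine Real.sqrt_le_sqrt ?_
    have h1 : (∫ x, W x * η j x * rho x ∂t.μ) ^ 2 ≤ rsq W η t.μ :=
      Finset.single_le_sum (f := fun j => (∫ x, W x * η j x * rho x ∂t.μ) ^ 2)
        (fun i _ => sq_nonneg _) (Finset.mem_univ j)
    have := sq_nonneg ‖co W ζ t.μ‖
    have := dis_nonneg (μ := t.μ) (T := t.T) (H := t.H)
    simp only [hY]; linarith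
  refine blow_pr hm hE hc hD.dens hW (Wi := fun _ => W) (Eventually.of_forall fun _ => hW) ?_
    (V := {v | ∃ (x : Fin k → ℝ) (y : Fin l → ℝ),
      v = fun p => ∑ i, x i * ζ i p + ∑ j, y j * η j p}) ?_ ?_ (hPr U hU) ?_ hpos hDD hdis
  · intro ξ hξ hξc ε hε
    refine Eventually.of_forall fun t x => ?_
    rw [sub_self, abs_zero]; exact hε.le
  · rintro _ ⟨x, y, rfl⟩
    exact ⟨(cont_sum hD.contζ x).add (cont_sum hD.contη y),
      (pb_sum hD.pbζ x).add (pb_sum hD.pbη y)⟩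
  · rintro _ ⟨x, y, rfl⟩
    have h1 : Tendsto (fun t : Tri E => ∑ i, x i * ((∫ p, W p * ζ i p * rho p ∂t.μ)
        / √(DD t.μ W 0)) + ∑ j, y j * ((∫ p, W p * η j p * rho p ∂t.μ) / √(DD t.μ W 0))) U
        (𝓝 (∑ i, x i * 0 + ∑ j, y j * 0)) :=
      (tendsto_finsetSum _ fun i _ => (hζ0 i).const_mul _).add
        (tendsto_finsetSum _ fun j _ => (hη0 j).const_mul _)
    simp only [mul_zero, Finset.sum_const_zero, add_zero] at h1
    refine h1.congr' ?_
    filter_upwards [hc.sl] with t ht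
    have i1 : ∀ i, Integrable (fun p => x i * (W p * ζ i p * rho p)) t.μ := fun i =>
      (ht.integrable_PB (u := fun p => W p * ζ i p)
        (hW.cont.mul (hD.contζ i)).aestronglyMeasurable (hW.pg.b0.mul (hD.pbζ i))).const_mul _
    have i2 : ∀ j, Integrable (fun p => y j * (W p * η j p * rho p)) t.μ := fun j =>
      (ht.integrable_PB (u := fun p => W p * η j p)
        (hW.cont.mul (hD.contη j)).aestronglyMeasurable (hW.pg.b0.mul (hD.pbη j))).const_mul _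
    have e1 : ∀ p, W p * (∑ i, x i * ζ i p + ∑ j, y j * η j p) * rho p
        = ∑ i, x i * (W p * ζ i p * rho p) + ∑ j, y j * (W p * η j p * rho p) := by
      intro p
      rw [mul_add, add_mul, Finset.mul_sum, Finset.mul_sum, Finset.sum_mul, Finset.sum_mul]
      congr 1
      · refine Finset.sum_congr rfl fun i _ => by ring
      · refine Finset.sum_congr rfl fun i _ => by ring
    simp_rw [e1]
    rw [integral_add (integrable_finsetSum _ fun i _ => i1 i)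
      (integrable_finsetSum _ fun j _ => i2 j),
      integral_finsetSum _ fun i _ => i1 i, integral_finsetSum _ fun j _ => i2 j, add_div,
      Finset.sum_div, Finset.sum_div]
    simp_rw [integral_const_mul, mul_div_assoc]
  · intro u h1 h2 h3 h4
    obtain ⟨x, y, hxy⟩ := hD.hnd u h1 h2 h3 h4
    exact ⟨_, ⟨x, y, rfl⟩, hxy⟩

/-- **L3: the coordinates are small when the dissipation is small** -/
theorem static_co (hm : 0 < m) (hE : Module.finrank ℝ E = m + 1) [IsLocallyFiniteMeasure κ]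
    (hD : SOD m κ W c K q ζ η Pr) (hI : Inp m κ W ζ η Pr C₀ J₀ B) {F : Filter (Tri E)}
    (hF : F ≤ nearS m κ CM CR)
    (hPr : ∀ U : Ultrafilter (Tri E), (U : Filter (Tri E)) ≤ F →
      LimPr U (fun t : Tri E => t.μ) κ (fun _ => W) Pr) :
    ∀ C₂ : ℝ, 0 ≤ C₂ →
    ∃ C : ℝ, 0 ≤ C ∧ ∀ᶠ t in F, ∀ e : ℝ, 0 ≤ e →
      DD t.μ W (J₀ + 1) + TG t.μ t.T W (J₀ + 1) ≤ C₂ * (‖co W ζ t.μ‖ ^ 2 + e) →
      ‖co W ζ t.μ‖ ^ 2 ≤ C * (√(dis t.μ t.T t.H) + dis t.μ t.T t.H + rsq W η t.μ + e) := by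
  intro C₂ hC₂
  have hK := hD.K_nn
  have hW := hD.tube
  obtain ⟨c₁, hc₁, hco⟩ := exists_quad_coer (B := B) fun a ha => hD.nd a fun i => by
    rw [hI.quad]; exact ha i
  set ε := c₁ / (2 * (k + 1) * (C₂ + 1)) with hε
  have hε0 : 0 < ε := by positivity
  have hεk : (k : ℝ) * (ε * C₂) ≤ c₁ / 2 := by
    rw [hε, div_mul_eq_mul_div, mul_div_assoc', div_le_div_iff₀ (by positivity) (by norm_num)]
    have h1 : 0 ≤ (k : ℝ) := k.cast_nonneg
    nlinarith [mul_nonneg h1 hC₂, mul_nonneg hc₁.le h1, mul_nonneg hc₁.le hC₂,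
      mul_nonneg hc₁.le (mul_nonneg h1 hC₂)]
  obtain ⟨C₃, hC₃, hst⟩ := static_rate hm hE hD hI hF hPr ε hε0
  set L := 2 * K ^ 2 * √(CM (2 * q)) with hL
  have hL0 : 0 ≤ L := by positivity
  set C₄ := (k : ℝ) * (L + C₃ + ε * C₂) with hC₄
  have hC₄0 : 0 ≤ C₄ := by positivity
  refine ⟨2 * C₄ / c₁, by positivity, ?_⟩
  filter_upwards [hst, nearS_mem.filter_mono hF] with t ht hs e he hmain
  obtain ⟨hsl, hmo, -⟩ := hs
  have hr := rsq_nonneg W η t.μ
  have hd := dis_nonneg (μ := t.μ) (T := t.T) (H := t.H)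
  have hsd := Real.sqrt_nonneg (dis t.μ t.T t.H)
  set A := ‖co W ζ t.μ‖ ^ 2 with hA
  have hA0 : 0 ≤ A := sq_nonneg _
  have h1 : ∀ i, |∑ p, ∑ r, co W ζ t.μ p * co W ζ t.μ r * B p r i|
      ≤ L * √(dis t.μ t.T t.H) + ε * (C₂ * (A + e)) + C₃ * (dis t.μ t.T t.H + rsq W η t.μ) := by
    intro i
    rw [← hI.quad]
    have h2 := ht i
    have h3 : |EE t.μ t.T t.H (fun y => W y * ζ i y)| ≤ L * √(dis t.μ t.T t.H) := by
      have hpg : PG (fun y => W y * ζ i y) := hW.pg.mul (hD.pgζ i)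
      refine (abs_EE_le hsl hpg (C := 2 * K ^ 2) (p := q) (by positivity) (fun x => ?_)
        (hmo _)).trans (le_of_eq (by rw [hL]))
      rw [grad_mul (hW.diff x) ((hD.pgζ i).diff x)]
      refine (norm_add_le _ _).trans ?_
      rw [norm_smul, norm_smul, Real.norm_eq_abs, Real.norm_eq_abs]
      have g1 := hW.b0 x
      have g2 := hD.b1 i x
      have g3 := hW.b1 x
      have g4 := hD.b0 i x
      have g5 : |W x| * ‖grad (ζ i) x‖ ≤ K * (K * (1 + ‖x‖) ^ q) := by gcongr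
      have g6 : |ζ i x| * ‖grad W x‖ ≤ (K * (1 + ‖x‖) ^ q) * K := by gcongr
      linarith
    have h4 : |Phi κ W (lc ζ (co W ζ t.μ)) (lc ζ (co W ζ t.μ)) (ζ i)|
        ≤ |EE t.μ t.T t.H (fun y => W y * ζ i y)|
          + |EE t.μ t.T t.H (fun y => W y * ζ i y)
            - Phi κ W (lc ζ (co W ζ t.μ)) (lc ζ (co W ζ t.μ)) (ζ i)| := by
      have := abs_sub_abs_le_abs_sub (Phi κ W (lc ζ (co W ζ t.μ)) (lc ζ (co W ζ t.μ)) (ζ i))
        (EE t.μ t.T t.H (fun y => W y * ζ i y))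
      rw [abs_sub_comm] at this
      linarith
    have h5 := mul_le_mul_of_nonneg_left hmain hε0.le
    linarith
  have h2 := hco (co W ζ t.μ)
  have h3 : ∑ i, |∑ p, ∑ r, co W ζ t.μ p * co W ζ t.μ r * B p r i|
      ≤ (k : ℝ) * (L * √(dis t.μ t.T t.H) + ε * (C₂ * (A + e))
        + C₃ * (dis t.μ t.T t.H + rsq W η t.μ)) := by
    refine (Finset.sum_le_sum fun i _ => h1 i).trans (le_of_eq ?_)
    rw [Finset.sum_const, Finset.card_univ, Fintype.card_fin, nsmul_eq_mul]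
  have h4 : (k : ℝ) * (ε * C₂) * A ≤ c₁ / 2 * A := mul_le_mul_of_nonneg_right hεk hA0
  have hk : (0 : ℝ) ≤ k := k.cast_nonneg
  set D := √(dis t.μ t.T t.H) + dis t.μ t.T t.H + rsq W η t.μ + e with hDd
  have b1 : (k : ℝ) * L * √(dis t.μ t.T t.H) ≤ (k : ℝ) * L * D :=
    mul_le_mul_of_nonneg_left (by rw [hDd]; linarith) (by positivity)
  have b2 : (k : ℝ) * C₃ * (dis t.μ t.T t.H + rsq W η t.μ) ≤ (k : ℝ) * C₃ * D :=
    mul_le_mul_of_nonneg_left (by rw [hDd]; linarith) (by positivity)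
  have b3 : (k : ℝ) * (ε * C₂) * e ≤ (k : ℝ) * (ε * C₂) * D :=
    mul_le_mul_of_nonneg_left (by rw [hDd]; linarith) (by positivity)
  have h5 : c₁ / 2 * A ≤ C₄ * D := by
    have e1 : C₄ * D = (k : ℝ) * L * D + (k : ℝ) * C₃ * D + (k : ℝ) * (ε * C₂) * D := by
      rw [hC₄]; ring
    rw [e1]
    linarith
  rw [div_mul_eq_mul_div, le_div_iff₀ hc₁]
  linarith

end Vale.Agent.P218.SG
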