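import Vale.Agent.P218.H923.Inst
import Vale.Agent.P218.H333.SG.Stat

/-! The static estimates in the moving frames, equivariant version. -/

open MeasureTheory Set Filter Topology Metric
open scoped ENNReal NNReal RealInnerProductSpace CompactlySupported

namespace Vale.Agent.P218.SG

open Vale.Agent.P214 (IntegralVarifold proj divAlong IsTestField)
open Vale.Agent.P218.H313
open Vale.Agent.P218.H588 (Tri nearS Phi lc co rsq)
open Vale.Agent.P218.H923 (TG_mono cayZ cayZ_apply lc_eb cayZ_eb Phi_swap12 Phi_swap23 norm_grad_cay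
  co_eq_al small_param rot_facts rate_arith coer_arith small_arith)
open Vale.Agent.P218.H969 (rotTri cayE rotTri_DD rotTri_TG rotTri_dis rotTri_EE rotTri_co rotTri_rsq)

set_option linter.unusedSectionVars false
set_option linter.unusedVariables false

variable {E : Type*} [NormedAddCommGroup E] [InnerProductSpace ℝ E] [FiniteDimensional ℝ E]
  [MeasurableSpace E] [BorelSpace E]
variable {m k l : ℕ} {κ : Measure E} {W : E → ℝ} {c K : ℝ} {q : ℕ}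
  {ζ : Fin k → E → ℝ} {η : Fin l → E → ℝ} {Pr : (E → ℝ) → Prop}

section data

variable (hD : SOD m κ W c K q ζ η Pr)
include hD

lemma SODpg (i : Fin k) : PG (ζ i) where
  cd := (hD.cd i).of_le (by norm_num)
  b0 := PB.of_le (C := K) (p := q) fun x => by rw [Real.norm_eq_abs]; exact hD.b0 i x
  b1 := PB.of_le (C := K) (p := q) fun x => by rw [← norm_grad]; exact hD.b1 i x

lemma lc_cd (z : LS k) : ContDiff ℝ 3 (lc ζ z) := by
  unfold lc
  exact ContDiff.sum fun i _ => contDiff_const.mul (hD.cd i)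

lemma grad_lc (z : LS k) (x : E) : grad (lc ζ z) x = ∑ i, z i • grad (ζ i) x := by
  refine grad_unique fun v => ?_
  have h1 : HasFDerivAt (lc ζ z) (∑ i, z i • fderiv ℝ (ζ i) x) x := by
    have h2 : ∀ i ∈ (Finset.univ : Finset (Fin k)),
        HasFDerivAt (fun y => z i * ζ i y) (z i • fderiv ℝ (ζ i) x) x := fun i _ =>
      ((SODpg hD i).diff x).hasFDerivAt.const_mul (z i)
    exact HasFDerivAt.fun_sum h2
  rw [h1.fderiv, sum_inner]
  simp only [real_inner_smul_left, inner_grad, _root_.sum_apply]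
  rfl

lemma abs_coord_le (z : LS k) (i : Fin k) : |z i| ≤ ‖z‖ := by
  have := PiLp.norm_apply_le z i
  rwa [Real.norm_eq_abs] at this

lemma lc_b0 (z : LS k) (x : E) : |lc ζ z x| ≤ k * K * (1 + ‖x‖) ^ q * ‖z‖ := by
  unfold lc
  refine (Finset.abs_sum_le_sum_abs _ _).trans ?_
  have : ∀ i ∈ (Finset.univ : Finset (Fin k)), |z i * ζ i x| ≤ ‖z‖ * (K * (1 + ‖x‖) ^ q) := by
    intro i _
    rw [abs_mul]
    have := abs_coord_le hD z i
    have := hD.b0 i x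
    gcongr
  refine (Finset.sum_le_sum this).trans (le_of_eq ?_)
  simp
  ring

lemma lc_b1 (z : LS k) (x : E) : ‖grad (lc ζ z) x‖ ≤ k * K * (1 + ‖x‖) ^ q * ‖z‖ := by
  rw [grad_lc hD]
  refine (norm_sum_le _ _).trans ?_
  have : ∀ i ∈ (Finset.univ : Finset (Fin k)), ‖z i • grad (ζ i) x‖
      ≤ ‖z‖ * (K * (1 + ‖x‖) ^ q) := by
    intro i _
    rw [norm_smul, Real.norm_eq_abs]
    have := abs_coord_le hD z i
    have := hD.b1 i x
    gcongr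
  refine (Finset.sum_le_sum this).trans (le_of_eq ?_)
  simp
  ring

/-- Lipschitz estimate on balls -/
lemma lc_lip (z : LS k) {x y : E} {R : ℝ} (hx : ‖x‖ ≤ R) (hy : ‖y‖ ≤ R) :
    |lc ζ z x - lc ζ z y| ≤ k * K * (1 + R) ^ q * ‖z‖ * ‖x - y‖ := by
  have hK := hD.tube.K_nonneg
  have hR : 0 ≤ R := (norm_nonneg x).trans hx
  have hd : ∀ w ∈ closedBall (0 : E) R, DifferentiableAt ℝ (lc ζ z) w := fun w _ =>
    (lc_cd hD z).differentiable (by norm_num) w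
  have hb : ∀ w ∈ closedBall (0 : E) R, ‖fderiv ℝ (lc ζ z) w‖ ≤ k * K * (1 + R) ^ q * ‖z‖ := by
    intro w hw
    have hw' : ‖w‖ ≤ R := by simpa using hw
    rw [← norm_grad]
    refine (lc_b1 hD z w).trans ?_
    gcongr
  have h1 := (convex_closedBall (0 : E) R).norm_image_sub_le_of_norm_fderiv_le hd hb
    (by simpa using hy) (by simpa using hx)
  rwa [Real.norm_eq_abs] at h1

end data

/-- **the second order data in the moving frames** -/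
theorem sec_of_sod {M' : Submodule ℝ (E →L[ℝ] E)} (hM' : M' ≤ skew E)
    (hD : SOD m κ W c K q ζ η Pr) (hmom : ∀ p : ℕ, Integrable (fun x => (1 + ‖x‖) ^ p * rho x) κ)
    {V' : M' → M' →ₗ[ℝ] (E → ℝ)} (b : Module.Basis (Fin l) ℝ M')
    (hη : ∀ j x, η j x = V' 0 (b j) x)
    {Q : LS k →ₗ[ℝ] LS k →ₗ[ℝ] LS k →ₗ[ℝ] ℝ}
    (hQ : ∀ x y z, Q x y z = Phi κ W (lc ζ x) (lc ζ y) (lc ζ z)) (r : ℝ) :
    Sec k V' (cayZ ζ M') Q κ r (2 * (k * K)) (q + 1) := by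
  have hK := hD.tube.K_nonneg
  have hkK : (0:ℝ) ≤ k * K := by positivity
  have hcd : ∀ (a : M') (z : LS k), ContDiff ℝ 1 (cayZ ζ M' a z) := fun a z =>
    ((lc_cd hD z).of_le (by norm_num)).comp (cay (a : E →L[ℝ] E)).contDiff
  have hone : ∀ x : E, (1:ℝ) ≤ 1 + ‖x‖ := fun x => by have := norm_nonneg x; linarith
  have hpow : ∀ x : E, (1 + ‖x‖) ^ q ≤ (1 + ‖x‖) ^ (q + 1) := fun x =>
    pow_le_pow_right₀ (hone x) (Nat.le_succ q)
  refine
    { sm := fun a ha z => hcd a z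
      b0 := fun a ha z x => ?_
      b1 := fun a ha z x => ?_
      lip := fun a a' ha ha' z x => ?_
      orth := fun v z => ?_
      symm₁ := fun x y z => ?_
      symm₂ := fun x y z => ?_
      nondeg := fun x hx => ?_ }
  · rw [cayZ_apply]
    have h1 := lc_b0 hD z (cay (a : E →L[ℝ] E) x)
    rw [norm_cay (hM' a.2)] at h1
    refine h1.trans ?_
    have h2 := hpow x
    have h3 : (k : ℝ) * K ≤ 2 * (k * K) := by linarith
    gcongr
  · have h1 := norm_grad_cay (hM' a.2) (f := lc ζ z) x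
      ((lc_cd hD z).differentiable (by norm_num) _)
    have h2 := lc_b1 hD z (cay (a : E →L[ℝ] E) x)
    rw [norm_cay (hM' a.2)] at h2
    refine (h1.trans h2).trans ?_
    have h2 := hpow x
    have h3 : (k : ℝ) * K ≤ 2 * (k * K) := by linarith
    gcongr
  · rw [cayZ_apply, cayZ_apply]
    have h1 := lc_lip hD z (x := cay (a : E →L[ℝ] E) x) (y := cay (a' : E →L[ℝ] E) x)
      (R := ‖x‖) (by rw [norm_cay (hM' a.2)]) (by rw [norm_cay (hM' a'.2)])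
    have h2 := norm_cay_sub_le (hM' a.2) (hM' a'.2) x
    have h3 : ‖a - a'‖ = ‖(a : E →L[ℝ] E) - (a' : E →L[ℝ] E)‖ := rfl
    rw [← h3] at h2
    refine h1.trans ?_
    calc k * K * (1 + ‖x‖) ^ q * ‖z‖ * ‖cay (a : E →L[ℝ] E) x - cay (a' : E →L[ℝ] E) x‖
        ≤ k * K * (1 + ‖x‖) ^ q * ‖z‖ * (2 * ‖a - a'‖ * ‖x‖) := by gcongr
      _ = 2 * (k * K) * ((1 + ‖x‖) ^ q * ‖x‖) * ‖a - a'‖ * ‖z‖ := by ring
      _ ≤ 2 * (k * K) * ((1 + ‖x‖) ^ q * (1 + ‖x‖)) * ‖a - a'‖ * ‖z‖ := by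
          have : ‖x‖ ≤ 1 + ‖x‖ := by linarith
          gcongr
      _ = _ := by rw [pow_succ]
  · -- orthogonality
    have e : ∀ x, V' 0 v x * cayZ ζ M' 0 z x * rho x
        = ∑ j, ∑ i, (b.repr v j * z i) * (ζ i x * η j x * rho x) := by
      intro x
      have e1 : V' 0 v x = ∑ j, b.repr v j * η j x := by
        conv_lhs => rw [← b.sum_repr v]
        simp only [map_sum, map_smul, Finset.sum_apply, Pi.smul_apply, smul_eq_mul, hη]
      have e2 : cayZ ζ M' 0 z x = ∑ i, z i * ζ i x := by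
        rw [cayZ_apply]
        have : cay (((0 : M') : E →L[ℝ] E)) x = x := by simp [cay_zero]
        rw [this]; rfl
      rw [e1, e2, Finset.sum_mul_sum, Finset.sum_mul]
      refine Finset.sum_congr rfl fun j _ => ?_
      rw [Finset.sum_mul]
      refine Finset.sum_congr rfl fun i _ => ?_
      ring
    have hint : ∀ i j, Integrable (fun x => ζ i x * η j x * rho x) κ := by
      intro i j
      refine ((hmom (q + 1)).const_mul (K * K)).mono'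
        (((hD.cd i).continuous.mul (hD.ηcd j).continuous).mul
          continuous_rho).measurable.aestronglyMeasurable (Eventually.of_forall fun x => ?_)
      rw [norm_mul, norm_mul, Real.norm_of_nonneg (rho_pos x).le, Real.norm_eq_abs,
        Real.norm_eq_abs]
      have h1 := hD.b0 i x
      have h2 := hD.η0 j x
      have h3 := (rho_pos x).le
      calc |ζ i x| * |η j x| * rho x ≤ (K * (1 + ‖x‖) ^ q) * (K * (1 + ‖x‖)) * rho x := by
            gcongr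
        _ = _ := by ring
    simp_rw [e]
    rw [integral_finsetSum]
    · refine Finset.sum_eq_zero fun j _ => ?_
      rw [integral_finsetSum]
      · refine Finset.sum_eq_zero fun i _ => ?_
        rw [integral_const_mul, hD.orth i j, mul_zero]
      · intro i _
        exact (hint i j).const_mul _
    · intro j _
      exact integrable_finsetSum _ fun i _ => (hint i j).const_mul _
  · rw [hQ, hQ]; exact Phi_swap12 hD.tube.smooth _ _ _
  · rw [hQ, hQ]; exact Phi_swap23 hD.tube.smooth _ _ _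
  · refine hD.nd x fun i => ?_
    have := hx (Cubic.eb i)
    rwa [hQ, lc_eb] at this

variable {M' : Submodule ℝ (E →L[ℝ] E)} {V' : M' → M' →ₗ[ℝ] (E → ℝ)} {r K₁ : ℝ} {q₁ : ℕ}

/-- the coordinates along the rotations, in the moving frames -/
lemma exists_rsq (hM' : M' ≤ skew E) (hD : SOD m κ W c K q ζ η Pr)
    (hF : Fam m (fun (a : M') x => W (cay (a : E →L[ℝ] E) x)) V' r c K₁ q₁)
    (b : Module.Basis (Fin l) ℝ M') (hη : ∀ j x, η j x = V' 0 (b j) x) {M : ℝ} (hM0 : 0 ≤ M) :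
    ∃ C : ℝ, 0 ≤ C ∧ ∀ (μ : Measure E) (T : E → Submodule ℝ E) (H : E → E), GSlice m μ T H →
      ∫ x, (1 + ‖x‖) ^ (2 * (q₁ + 2)) * rho x ∂μ ≤ M → ∀ a : M', ‖a‖ ≤ r → ∀ g : ℝ, 0 ≤ g →
      (∀ b, |GF μ (fun (a : M') x => W (cay (a : E →L[ℝ] E) x)) V' a b| ≤ g * ‖b‖) →
      rsq (fun x => W (cay (a : E →L[ℝ] E) x)) (fun j x => η j (cay (a : E →L[ℝ] E) x)) μ
        ≤ C * (g ^ 2 + ‖a‖ ^ 2 * DD μ (fun x => W (cay (a : E →L[ℝ] E) x)) 0) := by
  have hK := hD.tube.K_nonneg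
  have hK₁ := hF.Knn
  set B : ℝ := ∑ j, ‖b j‖ with hB
  have hB0 : 0 ≤ B := Finset.sum_nonneg fun j _ => norm_nonneg _
  have hBj : ∀ j, ‖b j‖ ≤ B := fun j =>
    Finset.single_le_sum (f := fun j => ‖b j‖) (fun j _ => norm_nonneg _) (Finset.mem_univ j)
  set A : ℝ := 2 * K + K₁ * B with hA
  have hA0 : 0 ≤ A := by positivity
  refine ⟨l * (2 * B ^ 2 + 2 * (A ^ 2 * M)), by positivity, ?_⟩
  intro μ T H hS hM a ha g hg hGF
  have hT := hF.tube a ha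
  have h0 : ‖(0 : M')‖ ≤ r := hF.zero_le
  have hsk := hM' a.2
  have hone : ∀ x : E, (1:ℝ) ≤ 1 + ‖x‖ := fun x => by have := norm_nonneg x; linarith
  set D := DD μ (fun x => W (cay (a : E →L[ℝ] E) x)) 0 with hDd
  have hD0 : 0 ≤ D := DD_nonneg 0
  have hj : ∀ j, (∫ x, W (cay (a : E →L[ℝ] E) x) * η j (cay (a : E →L[ℝ] E) x) * rho x ∂μ) ^ 2
      ≤ (2 * B ^ 2 + 2 * (A ^ 2 * M)) * (g ^ 2 + ‖a‖ ^ 2 * D) := by
    intro j
    -- the difference
    have hηc : Continuous (fun x => η j (cay (a : E →L[ℝ] E) x)) :=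
      (hD.ηcd j).continuous.comp (cay (a : E →L[ℝ] E)).continuous
    have hVc : Continuous (V' a (b j)) := (hF.dsm a ha (b j)).continuous
    have hdiff : ∀ x, |η j (cay (a : E →L[ℝ] E) x) - V' a (b j) x|
        ≤ (A * ‖a‖) * (1 + ‖x‖) ^ (q₁ + 2) := by
      intro x
      have e1 : |η j (cay (a : E →L[ℝ] E) x) - η j x| ≤ K * (1 + ‖x‖) * (2 * ‖a‖ * ‖x‖) := by
        have hd : ∀ w ∈ closedBall (0 : E) ‖x‖, DifferentiableAt ℝ (η j) w := fun w _ =>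
          (hD.ηcd j).differentiable (by norm_num) w
        have hb : ∀ w ∈ closedBall (0 : E) ‖x‖, ‖fderiv ℝ (η j) w‖ ≤ K * (1 + ‖x‖) := by
          intro w hw
          have hw' : ‖w‖ ≤ ‖x‖ := by simpa using hw
          rw [← norm_grad]
          refine (hD.η1 j w).trans ?_
          gcongr
        have h1 := (convex_closedBall (0 : E) ‖x‖).norm_image_sub_le_of_norm_fderiv_le hd hb
          (y := cay (a : E →L[ℝ] E) x) (x := x) (by simp) (by simp [norm_cay hsk])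
        rw [Real.norm_eq_abs] at h1
        refine h1.trans ?_
        have h2 := norm_cay_sub_le hsk (skew E).zero_mem x
        rw [cay_zero, sub_zero] at h2
        have h3 : ‖a‖ = ‖(a : E →L[ℝ] E)‖ := rfl
        rw [← h3] at h2
        have h4 : ‖cay (a : E →L[ℝ] E) x - x‖ ≤ 2 * ‖a‖ * ‖x‖ := h2
        gcongr
      have e2 : |η j x - V' a (b j) x| ≤ K₁ * (1 + ‖x‖) ^ q₁ * ‖a‖ * ‖b j‖ := by
        rw [hη, abs_sub_comm]
        have := hF.dlip a 0 ha h0 (b j) x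
        rwa [sub_zero] at this
      have e3 : |η j (cay (a : E →L[ℝ] E) x) - V' a (b j) x|
          ≤ |η j (cay (a : E →L[ℝ] E) x) - η j x| + |η j x - V' a (b j) x| := by
        have := abs_add_le (η j (cay (a : E →L[ℝ] E) x) - η j x) (η j x - V' a (b j) x)
        rwa [sub_add_sub_cancel] at this
      refine e3.trans ?_
      have f1 : K * (1 + ‖x‖) * (2 * ‖a‖ * ‖x‖) ≤ 2 * K * ‖a‖ * (1 + ‖x‖) ^ (q₁ + 2) := by
        have g1 : (1 + ‖x‖) * ‖x‖ ≤ (1 + ‖x‖) ^ (q₁ + 2) := by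
          have g2 : (1 + ‖x‖) * ‖x‖ ≤ (1 + ‖x‖) ^ 2 := by nlinarith [norm_nonneg x]
          exact g2.trans (pow_le_pow_right₀ (hone x) (by omega))
        calc K * (1 + ‖x‖) * (2 * ‖a‖ * ‖x‖) = 2 * K * ‖a‖ * ((1 + ‖x‖) * ‖x‖) := by ring
          _ ≤ _ := by gcongr
      have f2 : K₁ * (1 + ‖x‖) ^ q₁ * ‖a‖ * ‖b j‖ ≤ K₁ * B * ‖a‖ * (1 + ‖x‖) ^ (q₁ + 2) := by
        have g1 : (1 + ‖x‖) ^ q₁ ≤ (1 + ‖x‖) ^ (q₁ + 2) :=
          pow_le_pow_right₀ (hone x) (by omega)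
        have g2 := hBj j
        calc K₁ * (1 + ‖x‖) ^ q₁ * ‖a‖ * ‖b j‖ ≤ K₁ * (1 + ‖x‖) ^ (q₁ + 2) * ‖a‖ * B := by
              gcongr
          _ = _ := by ring
      calc _ ≤ 2 * K * ‖a‖ * (1 + ‖x‖) ^ (q₁ + 2) + K₁ * B * ‖a‖ * (1 + ‖x‖) ^ (q₁ + 2) := by
            linarith
        _ = _ := by rw [hA]; ring
    have h1 := abs_int_mul_le hS hT (f := fun x => η j (cay (a : E →L[ℝ] E) x) - V' a (b j) x)
      (hηc.sub hVc).aestronglyMeasurable (by positivity : 0 ≤ A * ‖a‖) hdiff hM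
    -- splitting
    have i1 : Integrable (fun x => W (cay (a : E →L[ℝ] E) x) * V' a (b j) x * rho x) μ :=
      hS.integrable_PB (hT.cont.mul hVc).aestronglyMeasurable
        (hT.pg.b0.mul (PB.of_le (C := K₁ * ‖b j‖) (p := 1) fun x => by
          rw [Real.norm_eq_abs]
          refine (hF.db0 a ha (b j) x).trans (le_of_eq (by ring))))
    have hdb : PB (fun x => η j (cay (a : E →L[ℝ] E) x) - V' a (b j) x) :=
      PB.of_le (C := A * ‖a‖) (p := q₁ + 2) fun x => by rw [Real.norm_eq_abs]; exact hdiff x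
    have i2 : Integrable (fun x => W (cay (a : E →L[ℝ] E) x)
        * (η j (cay (a : E →L[ℝ] E) x) - V' a (b j) x) * rho x) μ :=
      hS.integrable_PB (hT.cont.mul (hηc.sub hVc)).aestronglyMeasurable (hT.pg.b0.mul hdb)
    have e4 : ∫ x, W (cay (a : E →L[ℝ] E) x) * η j (cay (a : E →L[ℝ] E) x) * rho x ∂μ
        = GF μ (fun (a : M') x => W (cay (a : E →L[ℝ] E) x)) V' a (b j)
          + ∫ x, W (cay (a : E →L[ℝ] E) x)
            * (η j (cay (a : E →L[ℝ] E) x) - V' a (b j) x) * rho x ∂μ := by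
      unfold GF
      rw [← integral_add i1 i2]
      congr 1; ext x; ring
    rw [e4]
    have h2 := hGF (b j)
    have h3 : |GF μ (fun (a : M') x => W (cay (a : E →L[ℝ] E) x)) V' a (b j)| ≤ g * B :=
      h2.trans (mul_le_mul_of_nonneg_left (hBj j) hg)
    set X := GF μ (fun (a : M') x => W (cay (a : E →L[ℝ] E) x)) V' a (b j)
    set Y := ∫ x, W (cay (a : E →L[ℝ] E) x)
            * (η j (cay (a : E →L[ℝ] E) x) - V' a (b j) x) * rho x ∂μ
    have hX2 : X ^ 2 ≤ g ^ 2 * B ^ 2 := by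
      rw [← sq_abs, ← mul_pow]; gcongr
    have hY2 : Y ^ 2 ≤ A ^ 2 * M * (‖a‖ ^ 2 * D) := by
      have h4 : |Y| ^ 2 ≤ (A * ‖a‖ * √M * √D) ^ 2 := by
        have h5 : |Y| ≤ A * ‖a‖ * √M * √D := h1
        gcongr
      rw [sq_abs] at h4
      refine h4.trans (le_of_eq ?_)
      rw [mul_pow, mul_pow, mul_pow, Real.sq_sqrt hM0, Real.sq_sqrt hD0]; ring
    have h5 : (X + Y) ^ 2 ≤ 2 * X ^ 2 + 2 * Y ^ 2 := by nlinarith [sq_nonneg (X - Y)]
    have h6 : 0 ≤ ‖a‖ ^ 2 * D := by positivity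
    have h7 : 0 ≤ B ^ 2 * (‖a‖ ^ 2 * D) := by positivity
    have h8 : 0 ≤ A ^ 2 * M * g ^ 2 := by positivity
    nlinarith
  unfold rsq
  refine (Finset.sum_le_sum fun j _ => hj j).trans (le_of_eq ?_)
  simp
  ring

/-- linearity of the rate -/
lemma EE_sum (hM' : M' ≤ skew E) (hD : SOD m κ W c K q ζ η Pr)
    (hF : Fam m (fun (a : M') x => W (cay (a : E →L[ℝ] E) x)) V' r c K₁ q₁)
    {μ : Measure E} {T : E → Submodule ℝ E} {H : E → E} (hS : GSlice m μ T H) {a : M'}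
    (ha : ‖a‖ ≤ r) (z : LS k) :
    EE μ T H (fun y => W (cay (a : E →L[ℝ] E) y) * cayZ ζ M' a z y)
      = ∑ i, z i * EE μ T H (fun y => W (cay (a : E →L[ℝ] E) y) * cayZ ζ M' a (Cubic.eb i) y) := by
  have hT := hF.tube a ha
  have hZpg : ∀ i, PG (cayZ ζ M' a (Cubic.eb i)) := by
    intro i
    have h1 : ContDiff ℝ 1 (fun x => ζ i (cay (a : E →L[ℝ] E) x)) :=
      ((hD.cd i).of_le (by norm_num)).comp (cay (a : E →L[ℝ] E)).contDiff
    have e : cayZ ζ M' a (Cubic.eb i) = fun x => ζ i (cay (a : E →L[ℝ] E) x) := by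
      ext x; rw [cayZ_eb]
    rw [e]
    refine ⟨h1, PB.of_le (C := K) (p := q) fun x => ?_, PB.of_le (C := K) (p := q) fun x => ?_⟩
    · rw [Real.norm_eq_abs]
      have := hD.b0 i (cay (a : E →L[ℝ] E) x)
      rwa [norm_cay (hM' a.2)] at this
    · rw [← norm_grad]
      refine (norm_grad_cay (hM' a.2) (f := ζ i) x ((SODpg hD i).diff _)).trans ?_
      have := hD.b1 i (cay (a : E →L[ℝ] E) x)
      rwa [norm_cay (hM' a.2)] at this
  have hpg : ∀ i, PG (fun y => W (cay (a : E →L[ℝ] E) y) * cayZ ζ M' a (Cubic.eb i) y) :=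
    fun i => hT.pg.mul (hZpg i)
  have hfun : (fun y => W (cay (a : E →L[ℝ] E) y) * cayZ ζ M' a z y)
      = fun y => ∑ i, z i * (W (cay (a : E →L[ℝ] E) y) * cayZ ζ M' a (Cubic.eb i) y) := by
    ext y
    conv_lhs => rw [← Cubic.sum_eb z]
    simp only [map_sum, map_smul, Finset.sum_apply, Pi.smul_apply, smul_eq_mul, Finset.mul_sum]
    refine Finset.sum_congr rfl fun i _ => by ring
  have hgr : ∀ x, grad (fun y => W (cay (a : E →L[ℝ] E) y) * cayZ ζ M' a z y) x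
      = ∑ i, z i • grad (fun y => W (cay (a : E →L[ℝ] E) y)
          * cayZ ζ M' a (Cubic.eb i) y) x := by
    intro x
    rw [hfun]
    refine grad_unique fun v => ?_
    have h1 : HasFDerivAt (fun y => ∑ i, z i * (W (cay (a : E →L[ℝ] E) y)
        * cayZ ζ M' a (Cubic.eb i) y))
        (∑ i, z i • fderiv ℝ (fun y => W (cay (a : E →L[ℝ] E) y)
          * cayZ ζ M' a (Cubic.eb i) y) x) x := by
      refine HasFDerivAt.fun_sum fun i _ => ?_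
      exact ((hpg i).diff x).hasFDerivAt.const_mul (z i)
    rw [h1.fderiv, sum_inner]
    simp only [real_inner_smul_left, inner_grad, _root_.sum_apply]
    rfl
  unfold EE
  simp_rw [hgr, sum_inner, Finset.sum_mul, real_inner_smul_left]
  rw [integral_finsetSum]
  · refine Finset.sum_congr rfl fun i _ => ?_
    rw [← integral_const_mul]
    congr 1; ext x; ring
  · intro i _
    have h1 := hS.integrable_inner_vel (X := grad (fun y => W (cay (a : E →L[ℝ] E) y)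
      * cayZ ζ M' a (Cubic.eb i) y)) (continuous_grad (hpg i).cd).aestronglyMeasurable
      ((hpg i).b1.mono fun x => by rw [norm_grad])
    refine (h1.const_mul (z i)).congr (Eventually.of_forall fun x => ?_)
    simp only; ring

variable {N : ℝ → Measure E} {T : ℝ → E → Submodule ℝ E} {H : ℝ → E → E} {s₀ : ℝ}

/-- the facts used at times near the shrinker -/
lemma exists_ev (h : RF m N T H s₀) (hM' : M' ≤ skew E) (hD : SOD m κ W c K q ζ η Pr)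
    (hF : Fam m (fun (a : M') x => W (cay (a : E →L[ℝ] E) x)) V' r c K₁ q₁)
    (b : Module.Basis (Fin l) ℝ M') (hη : ∀ j x, η j x = V' 0 (b j) x) :
    ∃ Cr : ℝ, 0 ≤ Cr ∧ ∀ᶠ p : ℝ × M' in nearF m N T H κ ×ˢ 𝓝 (0 : M'),
      GSlice m (N p.1) (T p.1) (H p.1) ∧ ‖p.2‖ ≤ r ∧
      (∀ g : ℝ, 0 ≤ g → (∀ b, |GF (N p.1) (fun (a : M') x => W (cay (a : E →L[ℝ] E) x)) V' p.2 b|
        ≤ g * ‖b‖) →
        rsq W η (rotTri (cayE (p.2 : E →L[ℝ] E)) ⟨N p.1, T p.1, H p.1⟩).μ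
          ≤ Cr * (g ^ 2 + ‖p.2‖ ^ 2
            * DD (N p.1) (fun x => W (cay (p.2 : E →L[ℝ] E) x)) 0)) := by
  obtain ⟨M, hM⟩ := h.moment (2 * (q₁ + 2))
  obtain ⟨Cr, hCr, hrsq⟩ := exists_rsq hM' hD hF b hη (abs_nonneg M)
  refine ⟨Cr, hCr, ?_⟩
  have e1 : ∀ᶠ p : ℝ × M' in nearF m N T H κ ×ˢ 𝓝 (0 : M'),
      GSlice m (N p.1) (T p.1) (H p.1) := tendsto_fst.eventually nearF_sl
  have e2 : ∀ᶠ p : ℝ × M' in nearF m N T H κ ×ˢ 𝓝 (0 : M'), s₀ ≤ p.1 :=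
    tendsto_fst.eventually (nearF_atTop (eventually_ge_atTop s₀))
  have e3 : ∀ᶠ p : ℝ × M' in nearF m N T H κ ×ˢ 𝓝 (0 : M'), ‖p.2‖ ≤ r := by
    have h1 : Tendsto (fun a : M' => ‖a‖) (𝓝 0) (𝓝 0) := by
      have h3 := (continuous_norm (E := M')).tendsto 0
      simpa using h3
    exact tendsto_snd.eventually (h1.eventually_le_const hF.rpos)
  filter_upwards [e1, e2, e3] with p h1 h2 h3
  refine ⟨h1, h3, fun g hg hGF => ?_⟩
  rw [rotTri_rsq (hM' p.2.2)]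
  exact hrsq (N p.1) (T p.1) (H p.1) h1 ((hM p.1 h2).2.trans (le_abs_self M)) p.2 h3 g hg hGF

/-- the rate -/
theorem st_rate (h : RF m N T H s₀) (hM' : M' ≤ skew E) (hD : SOD m κ W c K q ζ η Pr)
    (hF : Fam m (fun (a : M') x => W (cay (a : E →L[ℝ] E) x)) V' r c K₁ q₁)
    (b : Module.Basis (Fin l) ℝ M') (hη : ∀ j x, η j x = V' 0 (b j) x)
    {Q : LS k →ₗ[ℝ] LS k →ₗ[ℝ] LS k →ₗ[ℝ] ℝ}
    (hQ : ∀ x y z, Q x y z = Phi κ W (lc ζ x) (lc ζ y) (lc ζ z))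
    {F : Filter (Tri E)}
    (hpull : Tendsto (fun p : ℝ × M' => rotTri (cayE (p.2 : E →L[ℝ] E))
      (⟨N p.1, T p.1, H p.1⟩ : Tri E)) (nearF m N T H κ ×ˢ 𝓝 0) F) {J1 : ℕ}
    (L1 : ∀ ε > 0, ∃ C : ℝ, 0 ≤ C ∧ ∀ᶠ t in F, ∀ i,
      |∫ x, ⟪grad (fun y => W y * ζ i y) x, vel t.T t.H x⟫ * rho x ∂t.μ
          - Phi κ W (lc ζ (co W ζ t.μ)) (lc ζ (co W ζ t.μ)) (ζ i)|
        ≤ ε * (DD t.μ W J1 + TG t.μ t.T W J1) + C * (dis t.μ t.T t.H + rsq W η t.μ))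
    {J : ℕ} (hJ1 : J1 ≤ J) (ε : ℝ) (hε : 0 < ε) :
    ∃ C : ℝ, 0 ≤ C ∧ ∀ᶠ p : ℝ × M' in nearF m N T H κ ×ˢ 𝓝 (0 : M'),
    ∀ g : ℝ, 0 ≤ g → (∀ b, |GF (N p.1) (fun (a : M') x => W (cay (a : E →L[ℝ] E) x)) V' p.2 b|
        ≤ g * ‖b‖) → ∀ z : LS k,
      |EE (N p.1) (T p.1) (H p.1) (fun y => W (cay (p.2 : E →L[ℝ] E) y) * cayZ ζ M' p.2 z y)
          - Q (al (N p.1) (fun (a : M') x => W (cay (a : E →L[ℝ] E) x)) (cayZ ζ M') p.2)
            (al (N p.1) (fun (a : M') x => W (cay (a : E →L[ℝ] E) x)) (cayZ ζ M') p.2) z|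
        ≤ ‖z‖ * (ε * (DD (N p.1) (fun x => W (cay (p.2 : E →L[ℝ] E) x)) J
            + TG (N p.1) (T p.1) (fun x => W (cay (p.2 : E →L[ℝ] E) x)) J)
          + C * (dis (N p.1) (T p.1) (H p.1) + g ^ 2)) := by
  obtain ⟨Cr, hCr, ev⟩ := exists_ev h hM' hD hF b hη
  set ε' := ε / (2 * ((k : ℝ) + 1)) with hε'd
  have hε' : 0 < ε' := by positivity
  obtain ⟨C, hC, hL⟩ := L1 ε' hε'
  refine ⟨k * (C * (1 + Cr)), by positivity, ?_⟩
  filter_upwards [hpull.eventually hL, ev, small_param (m := m) (κ := κ) (N := N) (T := T) (H := H)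
    (M' := M') (D := C * Cr) hε'] with p hp hev hsm g hg hGF z
  obtain ⟨hS, ha, hr⟩ := hev
  have hr' := hr g hg hGF
  have hT := hF.tube p.2 ha
  obtain ⟨r1, r2, r3, r4, r5⟩ := rot_facts (W := W) (ζ := ζ) hM' p.2 (N p.1) (T p.1) (H p.1)
  have hdd := DD_mono hS hT (Nat.zero_le J)
  have hdd1 := DD_mono hS hT hJ1
  have htg1 := TG_mono hS hT hJ1
  have htg0 : 0 ≤ TG (N p.1) (T p.1) (fun x => W (cay (p.2 : E →L[ℝ] E) x)) J := TG_nonneg J
  have hdd0 : 0 ≤ DD (N p.1) (fun x => W (cay (p.2 : E →L[ℝ] E) x)) 0 := DD_nonneg 0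
  have hcoord : ∀ i, |EE (N p.1) (T p.1) (H p.1) (fun y => W (cay (p.2 : E →L[ℝ] E) y)
      * cayZ ζ M' p.2 (Cubic.eb i) y)
      - Q (al (N p.1) (fun (a : M') x => W (cay (a : E →L[ℝ] E) x)) (cayZ ζ M') p.2)
        (al (N p.1) (fun (a : M') x => W (cay (a : E →L[ℝ] E) x)) (cayZ ζ M') p.2)
        (Cubic.eb i)|
      ≤ 2 * ε' * (DD (N p.1) (fun x => W (cay (p.2 : E →L[ℝ] E) x)) J
            + TG (N p.1) (T p.1) (fun x => W (cay (p.2 : E →L[ℝ] E) x)) J)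
        + C * (1 + Cr) * (dis (N p.1) (T p.1) (H p.1) + g ^ 2) := by
    intro i
    have h1 := hp i
    rw [r2 i, r1, r3, r4, r5] at h1
    rw [hQ, lc_eb]
    refine h1.trans ?_
    exact rate_arith hC hCr hε'.le (add_le_add hdd1 htg1) hr' hsm hdd0 (by linarith) rfl
      dis_nonneg (sq_nonneg g)
  have hEE := EE_sum (r := r) hM' hD hF hS ha z
  have hQs : Q (al (N p.1) (fun (a : M') x => W (cay (a : E →L[ℝ] E) x)) (cayZ ζ M') p.2)
      (al (N p.1) (fun (a : M') x => W (cay (a : E →L[ℝ] E) x)) (cayZ ζ M') p.2) z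
      = ∑ i, z i * Q (al (N p.1) (fun (a : M') x => W (cay (a : E →L[ℝ] E) x)) (cayZ ζ M') p.2)
        (al (N p.1) (fun (a : M') x => W (cay (a : E →L[ℝ] E) x)) (cayZ ζ M') p.2)
        (Cubic.eb i) := by
    conv_lhs => rw [← Cubic.sum_eb z]
    simp only [map_sum, map_smul, smul_eq_mul]
  rw [hEE, hQs, ← Finset.sum_sub_distrib]
  refine (Finset.abs_sum_le_sum_abs _ _).trans ?_
  set X := DD (N p.1) (fun x => W (cay (p.2 : E →L[ℝ] E) x)) J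
            + TG (N p.1) (T p.1) (fun x => W (cay (p.2 : E →L[ℝ] E) x)) J with hX
  have hX0 : 0 ≤ X := add_nonneg (DD_nonneg J) htg0
  have hY0 : 0 ≤ dis (N p.1) (T p.1) (H p.1) + g ^ 2 :=
    add_nonneg dis_nonneg (sq_nonneg g)
  set Y := dis (N p.1) (T p.1) (H p.1) + g ^ 2 with hY
  have hi : ∀ i ∈ (Finset.univ : Finset (Fin k)),
      |z i * EE (N p.1) (T p.1) (H p.1) (fun y => W (cay (p.2 : E →L[ℝ] E) y)
      * cayZ ζ M' p.2 (Cubic.eb i) y)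
        - z i * Q (al (N p.1) (fun (a : M') x => W (cay (a : E →L[ℝ] E) x)) (cayZ ζ M') p.2)
        (al (N p.1) (fun (a : M') x => W (cay (a : E →L[ℝ] E) x)) (cayZ ζ M') p.2)
          (Cubic.eb i)| ≤ ‖z‖ * (2 * ε' * X + C * (1 + Cr) * Y) := by
    intro i _
    rw [← mul_sub, abs_mul]
    exact mul_le_mul (abs_coord_le hD z i) (hcoord i) (abs_nonneg _) (norm_nonneg _)
  refine (Finset.sum_le_sum hi).trans ?_
  rw [Finset.sum_const, Finset.card_univ, Fintype.card_fin, nsmul_eq_mul]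
  have e5 : (k : ℝ) * (‖z‖ * (2 * ε' * X + C * (1 + Cr) * Y))
      = ‖z‖ * ((k * (2 * ε')) * X + k * (C * (1 + Cr)) * Y) := by ring
  rw [e5]
  have e6 : (k : ℝ) * (2 * ε') ≤ ε := by
    rw [hε'd]
    have hk0 : (0 : ℝ) ≤ k := Nat.cast_nonneg k
    calc (k : ℝ) * (2 * (ε / (2 * ((k : ℝ) + 1)))) = ε * (k / (k + 1)) := by field_simp
      _ ≤ ε * 1 := by
          gcongr
          rw [div_le_one (by positivity)]; linarith
      _ = ε := mul_one _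
  have e7 := mul_le_mul_of_nonneg_right e6 hX0
  exact mul_le_mul_of_nonneg_left (by linarith) (norm_nonneg z)

/-- coercivity -/
theorem st_coer (h : RF m N T H s₀) (hM' : M' ≤ skew E) (hD : SOD m κ W c K q ζ η Pr)
    (hF : Fam m (fun (a : M') x => W (cay (a : E →L[ℝ] E) x)) V' r c K₁ q₁)
    (b : Module.Basis (Fin l) ℝ M') (hη : ∀ j x, η j x = V' 0 (b j) x)
    {F : Filter (Tri E)}
    (hpull : Tendsto (fun p : ℝ × M' => rotTri (cayE (p.2 : E →L[ℝ] E))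
      (⟨N p.1, T p.1, H p.1⟩ : Tri E)) (nearF m N T H κ ×ˢ 𝓝 0) F) {C2 : ℝ}
    (hC2 : 0 ≤ C2) (L2 : ∀ᶠ t in F,
      DD t.μ W 0 ≤ C2 * (‖co W ζ t.μ‖ ^ 2 + dis t.μ t.T t.H + rsq W η t.μ)) :
    ∃ C : ℝ, 0 ≤ C ∧ ∀ᶠ p : ℝ × M' in nearF m N T H κ ×ˢ 𝓝 (0 : M'),
    ∀ g : ℝ, 0 ≤ g → (∀ b, |GF (N p.1) (fun (a : M') x => W (cay (a : E →L[ℝ] E) x)) V' p.2 b|
        ≤ g * ‖b‖) →
      DD (N p.1) (fun x => W (cay (p.2 : E →L[ℝ] E) x)) 0
        ≤ C * (‖al (N p.1) (fun (a : M') x => W (cay (a : E →L[ℝ] E) x)) (cayZ ζ M') p.2‖ ^ 2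
          + dis (N p.1) (T p.1) (H p.1) + g ^ 2) := by
  obtain ⟨Cr, hCr, ev⟩ := exists_ev h hM' hD hF b hη
  refine ⟨2 * C2 * (1 + Cr), by positivity, ?_⟩
  filter_upwards [hpull.eventually L2, ev, small_param (m := m) (κ := κ) (N := N) (T := T) (H := H)
    (M' := M') (D := C2 * Cr) (by norm_num : (0 : ℝ) < 1 / 2)] with p hp hev hsm g hg hGF
  obtain ⟨hS, ha, hr⟩ := hev
  have hr' := hr g hg hGF
  obtain ⟨r1, r2, r3, r4, r5⟩ := rot_facts (W := W) (ζ := ζ) hM' p.2 (N p.1) (T p.1) (H p.1)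
  rw [r1, r3, r5] at hp
  exact coer_arith hC2 hCr hp hr' hsm (DD_nonneg 0) (sq_nonneg _) dis_nonneg (sq_nonneg g)

/-- smallness of the coordinates -/
theorem st_small (h : RF m N T H s₀) (hM' : M' ≤ skew E) (hD : SOD m κ W c K q ζ η Pr)
    (hF : Fam m (fun (a : M') x => W (cay (a : E →L[ℝ] E) x)) V' r c K₁ q₁)
    (b : Module.Basis (Fin l) ℝ M') (hη : ∀ j x, η j x = V' 0 (b j) x)
    {F : Filter (Tri E)}
    (hpull : Tendsto (fun p : ℝ × M' => rotTri (cayE (p.2 : E →L[ℝ] E))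
      (⟨N p.1, T p.1, H p.1⟩ : Tri E)) (nearF m N T H κ ×ˢ 𝓝 0) F) {J3 : ℕ}
    (L3 : ∀ C₂ : ℝ, 0 ≤ C₂ →
      ∃ C : ℝ, 0 ≤ C ∧ ∀ᶠ t in F, ∀ e : ℝ, 0 ≤ e →
      DD t.μ W J3 + TG t.μ t.T W J3 ≤ C₂ * (‖co W ζ t.μ‖ ^ 2 + e) →
      ‖co W ζ t.μ‖ ^ 2 ≤ C * (√(dis t.μ t.T t.H) + dis t.μ t.T t.H + rsq W η t.μ + e))
    {J : ℕ} (hJ3 : J3 ≤ J) (C₂ : ℝ) (hC₂ : 0 ≤ C₂) :
    ∃ C : ℝ, 0 ≤ C ∧ ∀ᶠ p : ℝ × M' in nearF m N T H κ ×ˢ 𝓝 (0 : M'),
    ∀ g : ℝ, 0 ≤ g → (∀ b, |GF (N p.1) (fun (a : M') x => W (cay (a : E →L[ℝ] E) x)) V' p.2 b|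
        ≤ g * ‖b‖) → ∀ e : ℝ, 0 ≤ e →
      DD (N p.1) (fun x => W (cay (p.2 : E →L[ℝ] E) x)) J
        + TG (N p.1) (T p.1) (fun x => W (cay (p.2 : E →L[ℝ] E) x)) J
        ≤ C₂ * (‖al (N p.1) (fun (a : M') x => W (cay (a : E →L[ℝ] E) x)) (cayZ ζ M') p.2‖ ^ 2
          + e) →
      ‖al (N p.1) (fun (a : M') x => W (cay (a : E →L[ℝ] E) x)) (cayZ ζ M') p.2‖ ^ 2
        ≤ C * (√(dis (N p.1) (T p.1) (H p.1))
          + dis (N p.1) (T p.1) (H p.1) + g ^ 2 + e) := by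
  obtain ⟨Cr, hCr, ev⟩ := exists_ev h hM' hD hF b hη
  obtain ⟨C, hC, hL⟩ := L3 C₂ hC₂
  refine ⟨2 * C * (1 + Cr) + 1, by positivity, ?_⟩
  filter_upwards [hpull.eventually hL, ev, small_param (m := m) (κ := κ) (N := N) (T := T) (H := H)
    (M' := M') (D := C * Cr * C₂) (by norm_num : (0 : ℝ) < 1 / 2)] with p hp hev hsm g hg hGF e
    he hle
  obtain ⟨hS, ha, hr⟩ := hev
  have hr' := hr g hg hGF
  have hT := hF.tube p.2 ha
  have hdd := DD_mono hS hT (Nat.zero_le J)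
  have hdd1 := DD_mono hS hT hJ3
  have htg1 := TG_mono hS hT hJ3
  have htg0 : 0 ≤ TG (N p.1) (T p.1) (fun x => W (cay (p.2 : E →L[ℝ] E) x)) J := TG_nonneg J
  obtain ⟨r1, r2, r3, r4, r5⟩ := rot_facts (W := W) (ζ := ζ) hM' p.2 (N p.1) (T p.1) (H p.1)
  have hp' := hp e he
  rw [r1, r3, r4, r5] at hp'
  have hp2 := hp' (le_trans (add_le_add hdd1 htg1) hle)
  exact small_arith hC hCr hp2 hr' (sq_nonneg _) (by linarith) hsm (sq_nonneg _) dis_nonneg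
    (Real.sqrt_nonneg _) (sq_nonneg g) he

/-- **The static estimates in the moving frames.** -/
theorem st_of_sod (h : RF m N T H s₀) (hM' : M' ≤ skew E) (hD : SOD m κ W c K q ζ η Pr)
    (hF : Fam m (fun (a : M') x => W (cay (a : E →L[ℝ] E) x)) V' r c K₁ q₁)
    (b : Module.Basis (Fin l) ℝ M') (hη : ∀ j x, η j x = V' 0 (b j) x)
    {Q : LS k →ₗ[ℝ] LS k →ₗ[ℝ] LS k →ₗ[ℝ] ℝ}
    (hQ : ∀ x y z, Q x y z = Phi κ W (lc ζ x) (lc ζ y) (lc ζ z))
    {F : Filter (Tri E)}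
    (hpull : Tendsto (fun p : ℝ × M' => rotTri (cayE (p.2 : E →L[ℝ] E))
      (⟨N p.1, T p.1, H p.1⟩ : Tri E)) (nearF m N T H κ ×ˢ 𝓝 0) F)
    (L1 : ∃ J : ℕ, ∀ ε > 0, ∃ C : ℝ, 0 ≤ C ∧
      ∀ᶠ t in F, ∀ i,
      |∫ x, ⟪grad (fun y => W y * ζ i y) x, vel t.T t.H x⟫ * rho x ∂t.μ
          - Phi κ W (lc ζ (co W ζ t.μ)) (lc ζ (co W ζ t.μ)) (ζ i)|
        ≤ ε * (DD t.μ W J + TG t.μ t.T W J) + C * (dis t.μ t.T t.H + rsq W η t.μ))
    (L2 : ∃ C : ℝ, 0 ≤ C ∧ ∀ᶠ t in F,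
      DD t.μ W 0 ≤ C * (‖co W ζ t.μ‖ ^ 2 + dis t.μ t.T t.H + rsq W η t.μ))
    (L3 : ∃ J : ℕ, ∀ C₂ : ℝ, 0 ≤ C₂ →
      ∃ C : ℝ, 0 ≤ C ∧ ∀ᶠ t in F, ∀ e : ℝ, 0 ≤ e →
      DD t.μ W J + TG t.μ t.T W J ≤ C₂ * (‖co W ζ t.μ‖ ^ 2 + e) →
      ‖co W ζ t.μ‖ ^ 2 ≤ C * (√(dis t.μ t.T t.H) + dis t.μ t.T t.H + rsq W η t.μ + e)) :
    ∃ J₀ : ℕ, ∀ J : ℕ, J₀ ≤ J →
      St m k N T H (fun (a : M') x => W (cay (a : E →L[ℝ] E) x)) V' (cayZ ζ M') Q κ J := by
  obtain ⟨J1, L1⟩ := L1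
  obtain ⟨C2, hC2, L2⟩ := L2
  obtain ⟨J3, L3⟩ := L3
  refine ⟨max J1 J3, fun J hJ => ?_⟩
  have hJ1 : J1 ≤ J := (le_max_left _ _).trans hJ
  have hJ3 : J3 ≤ J := (le_max_right _ _).trans hJ
  exact
    { rate := fun ε hε => st_rate h hM' hD hF b hη hQ hpull L1 hJ1 ε hε
      coer := st_coer h hM' hD hF b hη hpull hC2 L2
      small := fun C₂ hC₂ => st_small h hM' hD hF b hη hpull L3 hJ3 C₂ hC₂ }

end Vale.Agent.P218.SG
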